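import Vale.Agent.P014T.Dr.Cy
import Vale.Agent.P014T.Kx.Tw

/-! # P014T: quadratic twists of Euler systems -/

set_option autoImplicit false
set_option linter.all false

open NumberField Matrix
open scoped NumberTheorySymbols Classical

noncomputable section

namespace Vale.Agent.P014T.Te

open Vale.Agent.P022 (Qb GQ)
open Vale.Agent.P027M.S (Inert)
open Vale.Agent.P022E.GW (Ov Fb)
open Vale.Agent.P004F (M2 sd)
open P004M.TE (Pt ga)
open Dr Kx.Tw

/-- a quadratic character of conductor dividing `D`, with value `b l` at the Frobenius of `l` -/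
structure Qd (D : ℕ) (ε : GQ → ℤ) (b : ℕ → ℤ) : Prop where
  ne : D ≠ 0
  mul : ∀ g h, ε (g * h) = ε g * ε h
  sq : ∀ g, ε g * ε g = 1
  cd : ∀ g ∈ Hm D, ε g = 1
  fb : ∀ l P φ, Ov l P → ¬ l ∣ D → Fb l P φ → ε φ = b l

variable {N D : ℕ} {ε : GQ → ℤ} {b a : ℕ → ℤ} {ρ : GQ →* M2 (Zn N)} {S : Finset ℕ} {Ad : ℕ → Prop}
  {z : Fm N}

namespace Qd

variable (q : Qd D ε b)

/-- the character with values in a ring -/
def ch (A : Type) [CommRing A] : GQ →* A where
  toFun g := ε g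
  map_one' := by rw [q.cd 1 (one_mem _), Int.cast_one]
  map_mul' g h := by rw [q.mul, Int.cast_mul]

theorem ch_apply (A : Type) [CommRing A] (g : GQ) : q.ch A g = ε g := rfl

theorem ch_cd (A : Type) [CommRing A] : Cd D (q.ch A) := fun g m => by
  rw [ch_apply, q.cd g m, Int.cast_one]

/-- the twisted representation -/
def tr {R : Type} [CommRing R] (ρ : GQ →* M2 R) : GQ →* M2 R where
  toFun g := ε g • ρ g
  map_one' := by rw [q.cd 1 (one_mem _), one_smul, map_one]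
  map_mul' g h := by rw [q.mul, map_mul, smul_mul_smul_comm]

theorem tr_apply {R : Type} [CommRing R] (ρ : GQ →* M2 R) (g : GQ) : q.tr ρ g = ε g • ρ g := rfl

/-- the twisted family -/
def zt (z : Fm N) : Fm N := fun M A _ ι Ψ => z (M * D) A ι (Ψ * q.ch A)

theorem zt_apply (M : ℕ) (A : Type) [CommRing A] (ι : Zn N →+* A) (Ψ : GQ →* A) :
    q.zt z M A ι Ψ = z (M * D) A ι (Ψ * q.ch A) := rfl

theorem aa_tr {A : Type} [CommRing A] (ι : Zn N →+* A) (Ψ : GQ →* A) :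
    aa (q.tr ρ) ι Ψ = aa ρ ι (Ψ * q.ch A) := by
  funext g
  ext i j
  simp [aa, tr_apply, ch_apply, mul_assoc, -zsmul_eq_mul, zsmul_eq_mul (ι _)]

theorem cd_mul {M : ℕ} {A : Type} [CommRing A] {Ψ : GQ →* A} (h : Cd M Ψ) :
    Cd (M * D) (Ψ * q.ch A) := fun g m => by
  rw [MonoidHom.mul_apply, h g (Hm_le (dvd_mul_right _ _) m), q.ch_cd A g (Hm_le (dvd_mul_left _ _) m),
    mul_one]

include q

theorem nd {l : ℕ} (hl : l.Prime) (h : l ∉ S ∪ D.primeFactors) : l ∉ S ∧ ¬ l ∣ D :=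
  ⟨fun m => h (Finset.mem_union_left _ m),
    fun m => h (Finset.mem_union_right _ (Nat.mem_primeFactors.2 ⟨hl, m, q.ne⟩))⟩

/-- **the twisted data** -/
theorem gr (G : Gr ρ S a Ad) :
    Gr (q.tr ρ) (S ∪ D.primeFactors) (fun l => b l * a l) fun M => Ad (M * D) where
  two := Finset.mem_union_left _ G.two
  unr l P o m i k := by
    rw [tr_apply, G.unr l P o (q.nd o.1 m).1 i k, q.cd i (inert_Hm o (q.nd o.1 m).2 k), one_smul]
  frb l P φ o m f := by
    obtain ⟨h1, h2⟩ := G.frb l P φ o (q.nd o.1 m).1 f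
    rw [tr_apply, ← Int.cast_smul_eq_zsmul (Zn N), det_smul, trace_smul, h1, h2, Fintype.card_fin,
      _root_.sq, ← Int.cast_mul, q.sq, q.fb l P φ o (q.nd o.1 m).2 f]
    simp
  pos M h := left_ne_zero_of_mul (G.pos _ h)
  ad2 M h := mul_right_comm M D 2 ▸ G.ad2 _ h
  adl M l h hl m n := mul_right_comm M D l ▸ G.adl _ l h hl (q.nd hl m).1 fun k =>
    (hl.dvd_mul.1 k).elim n (q.nd hl m).2

/-- **the twisted Euler system** -/
theorem eu (E : Eu ρ S a Ad z) :
    Eu (q.tr ρ) (S ∪ D.primeFactors) (fun l => b l * a l) (fun M => Ad (M * D)) (q.zt z) where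
  co M A _ ι Ψ h c := q.aa_tr ι Ψ ▸ E.co _ A ι _ h (q.cd_mul c)
  map M A B _ _ f ι Ψ g i h := by
    rw [zt_apply, zt_apply, E.map _ A B f ι _ g i h]
    congr 1
    ext x
    simp [ch_apply]
  two M A _ ι Ψ h c := by
    rw [zt_apply, zt_apply, mul_right_comm, E.two _ A ι _ h (q.cd_mul c)]
  odd M A _ ι Ψ l P φ h c o m n f := by
    rw [zt_apply, zt_apply, mul_right_comm, E.odd _ A ι _ l P φ h (q.cd_mul c) o (q.nd o.1 m).1
      (fun k => (o.1.dvd_mul.1 k).elim n (q.nd o.1 m).2) f, MonoidHom.mul_apply, ch_apply, mul_pow,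
      _root_.sq (ε φ : A), ← Int.cast_mul, q.sq, q.fb l P φ o (q.nd o.1 m).2 f]
    congr 1
    push_cast
    ring

end Qd

/-- a larger set of bad primes, other values there, fewer conductors -/
theorem gr_mono (G : Gr ρ S a Ad) {S' : Finset ℕ} {a' : ℕ → ℤ} (h : S ⊆ S')
    (e : ∀ l : ℕ, l.Prime → l ∉ S' → a' l = a l) : Gr ρ S' a' Ad :=
  ⟨h G.two, fun l P o m => G.unr l P o (mt (@h l) m), fun l P φ o m f =>
    e l o.1 m ▸ G.frb l P φ o (mt (@h l) m) f, G.pos, G.ad2,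
    fun M l k hl m => G.adl M l k hl (mt (@h l) m)⟩

theorem eu_mono (E : Eu ρ S a Ad z) {S' : Finset ℕ} {a' : ℕ → ℤ} (h : S ⊆ S')
    (e : ∀ l : ℕ, l.Prime → l ∉ S' → a' l = a l) : Eu ρ S' a' Ad z :=
  ⟨E.co, E.map, E.two, fun M A _ ι Ψ l P φ k c o m => e l o.1 m ▸ E.odd M A ι Ψ l P φ k c o (mt (@h l) m)⟩

/-! ### the character of `d` -/

/-- Gauss sums -/
theorem sd_prime {p : ℕ} (hp : p.Prime) (h2 : p ≠ 2) {g : GQ} {k : ℕ}
    (h : ∀ z : Qb, z ^ p = 1 → g z = z ^ k) : sd (ZMod.χ₄ p * p) g = J(k | p) := by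
  have := Fact.mk hp
  obtain ⟨ζ, hζ⟩ := HasEnoughRootsOfUnity.exists_primitiveRoot Qb p
  have rc : ringChar (ZMod p) ≠ 2 := by rwa [ZMod.ringChar_zmod_n]
  have k0 : (k : ZMod p) ≠ 0 := fun e => by
    obtain ⟨c, rfl⟩ := (ZMod.natCast_eq_zero_iff _ _).1 e
    have := h ζ hζ.pow_eq_one
    rw [pow_mul, hζ.pow_eq_one, one_pow, map_eq_one_iff _ g.injective] at this
    exact hζ.ne_one hp.one_lt this
  set χ := (quadraticChar (ZMod p)).ringHomComp (Int.castRingHom Qb) with hχ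
  set ψ := AddChar.zmodChar p hζ.pow_eq_one with hψ
  have s : gaussSum χ ψ ^ 2 = ((ZMod.χ₄ p * p : ℤ) : Qb) := by
    rw [gaussSum_sq ((MulChar.ringHomComp_ne_one_iff (RingHom.injective_int _)).2
      (quadraticChar_ne_one rc)) ((quadraticChar_isQuadratic _).comp _)
      (AddChar.zmodChar_primitive_of_primitive_root p hζ), MulChar.ringHomComp_apply,
      quadraticChar_neg_one rc, ZMod.card]
    simp
  have e : g (gaussSum χ ψ) = gaussSum χ (ψ.mulShift (Units.mk0 _ k0)) := by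
    rw [gaussSum, gaussSum, map_sum]
    refine Finset.sum_congr rfl fun x _ => ?_
    rw [map_mul, h (ψ x) (by rw [← AddChar.map_nsmul_eq_pow, nsmul_eq_mul, ZMod.natCast_self, zero_mul,
      AddChar.map_zero_eq_one]), ← AddChar.map_nsmul_eq_pow, nsmul_eq_mul, MulChar.ringHomComp_apply,
      eq_intCast, map_intCast]
    rfl
  have m := gaussSum_mulShift χ ψ (Units.mk0 _ k0)
  have n : gaussSum χ ψ ≠ 0 := fun q => by
    rw [q, zero_pow two_ne_zero, eq_comm, Int.cast_eq_zero, mul_eq_zero] at s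
    rcases s with s | s
    · rw [ZMod.χ₄_nat_eq_if_mod_four] at s
      have := hp.eq_two_or_odd
      split_ifs at s <;> omega
    · exact hp.ne_zero (by exact_mod_cast s)
  rw [← e, P004S.gal_sqrt s, MulChar.ringHomComp_apply, eq_intCast] at m
  rw [← jacobiSym.legendreSym.to_jacobiSym, legendreSym, Int.cast_natCast, sd]
  split_ifs at m ⊢
  · exact_mod_cast ((mul_eq_right₀ n).1 m).symm
  · rw [mul_neg, ← neg_mul, mul_eq_right₀ n, neg_eq_iff_eq_neg] at m
    exact_mod_cast m.symm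

theorem c4_ne {n : ℕ} (o : Odd n) : ZMod.χ₄ n * n ≠ 0 := by
  have := Nat.odd_iff.1 o
  rw [ZMod.χ₄_nat_eq_if_mod_four]
  split_ifs <;> omega

theorem sd_odd {n : ℕ} : Odd n → ∀ {g : GQ} {k : ℕ}, (∀ z : Qb, z ^ n = 1 → g z = z ^ k) →
    sd (ZMod.χ₄ n * n) g = J(k | n) := by
  induction n using induction_on_primes with
  | zero => exact fun o => absurd o (by decide)
  | one => exact fun _ g k _ => by simpa using sd_eq_one.2 ((P004S.nu_eq_zero (w := 1) (by simp)).2 (map_one g))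
  | prime_mul p n hp ih =>
    intro o g k h
    obtain ⟨o1, o2⟩ := Nat.odd_mul.1 o
    rw [show (ZMod.χ₄ (p * n : ℕ) * (p * n : ℕ) : ℤ) = ZMod.χ₄ p * p * (ZMod.χ₄ n * n) by
      push_cast [map_mul]; ring, sd_mul_left (c4_ne o1) (c4_ne o2),
      jacobiSym.mul_right' _ hp.ne_zero o2.pos.ne', sd_prime hp (by rintro rfl; exact absurd o1 (by decide))
        fun z e => h z (by rw [pow_mul, e, one_pow]), ih o2 fun z e => h z (by rw [pow_mul', e, one_pow])]

variable {d : ℤ}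

/-- **the quadratic character through the cyclotomic character** -/
theorem sd_cyc (hd : d % 4 = 1) {g : GQ} {k : ℕ} (h : ∀ z : Qb, z ^ d.natAbs = 1 → g z = z ^ k) :
    sd d g = J(k | d.natAbs) := by
  rw [← sd_odd (Nat.odd_iff.2 (by omega)) h, ZMod.χ₄_nat_eq_if_mod_four]
  congr 1
  split_ifs <;> omega

theorem sd_hm (hd : d % 4 = 1) {g : GQ} (m : g ∈ Hm d.natAbs) : sd d g = 1 := by
  simpa using sd_cyc hd (k := 1) fun z e => (m z e).trans (pow_one z).symm

theorem qd (hd : d % 4 = 1) : Qd d.natAbs (sd d) fun l => J(l | d.natAbs) :=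
  ⟨by omega, sd_mul d, sd_sq d, fun _ => sd_hm hd, fun l P φ o n f =>
    sd_cyc hd fun z e => root_cong o n f e⟩

/-- coordinates on the twisted curve -/
theorem he_tw {A B A' B' : ℤ} {R : Type} [CommRing R] {ρ : GQ →* M2 R} (q : Qd D ε b)
    (t : Pt A B →+ Pt A' B') (ht : ∀ g y, ga g (t y) = t (ε g • ga g y)) (e : (Fin 2 → R) →+ Pt A B)
    (he : ∀ g v, e (ρ g *ᵥ v) = ga g (e v)) (g : GQ) (v : Fin 2 → R) :
    t.comp e (q.tr ρ g *ᵥ v) = ga g (t.comp e v) := by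
  rw [AddMonoidHom.comp_apply, AddMonoidHom.comp_apply, ht, Qd.tr_apply, smul_mulVec, map_zsmul, he]

end Vale.Agent.P014T.Te
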